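import Vale.Agent.P176.Main

/-!
The little finitistic dimension conjecture is false.
-/

namespace Vale.Agent.Results.P176.FinitisticFalse

open CategoryTheory Vale.Agent.P176

/-- There is a finite-dimensional algebra over a field whose finitely generated modules of finite
projective dimension have unbounded projective dimension. -/
theorem result : ¬ ∀ (k : Type) [Field k] (A : Type) [Ring A] [Algebra k A] [Module.Finite k A],
    ∃ N : ℕ, ∀ M : ModuleCat.{0} A, Module.Finite A M →
      projectiveDimension M ≠ ⊤ → projectiveDimension M ≤ (N : WithBot ℕ∞) := by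
  intro h
  obtain ⟨N, hN⟩ := h ℚ Vale.Agent.P176.A
  obtain ⟨M, h1, h2, h3⟩ := unbounded N
  exact h3 (hN M h1 h2)

end Vale.Agent.Results.P176.FinitisticFalse
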